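import Vale.Agent.P261Z.C1.Okz
import Vale.Agent.P261Z.L.FV
import Vale.Agent.P261Z.C2.Cyc

/-!
# P261Z, the exchange of colours: lattices with a cyclic basis
-/

set_option linter.unusedSectionVars false

noncomputable section

open Matrix

namespace P261.Sw

open C1 C2

variable {p : ℕ} [hp : Fact p.Prime] {E : Type} [Fintype E] [DecidableEq E] {h n : ℕ}
  {K : Type} [CommRing K] [Pf p K] {F : Fil p K} {v : LV p E h K}

theorem pf0 (F : Fil p K) : Pf p F.zero :=
  Pf.subring _ fun x hx => F.root (by rwa [rt_pow, mul_zero])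

theorem mw_si {I J : Type} {M : Matrix I J (WittVector p K)} (hM : F.MW 0 M) :
    F.MW 0 (M.map (si p K)) := fun i j => by simpa using Fil.WS_si (hM i j)

theorem mw_si_pow {I J : Type} {M : Matrix I J (WittVector p K)} (hM : F.MW 0 M) (N : ℕ) :
    F.MW 0 (M.map ⇑(si p K ^ N)) := fun i j => by simpa using Fil.WS_si_pow (hM i j) N

omit [Pf p K] in
theorem wl_lift {x : WittVector p K} (hx : x ∈ F.WL 0) :
    ∃ y : WittVector p F.zero, wm p F.zero.subtype y = x :=
  (mem_wsub (S := F.zero)).2 fun n => F.mem_zero.2 (by simpa using Fil.mem_WL.1 hx n)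

omit [Pf p K] in
theorem mw_lift {I J : Type} {M : Matrix I J (WittVector p K)} (hM : F.MW 0 M) :
    ∃ N : Matrix I J (WittVector p F.zero), N.map (wm p F.zero.subtype) = M := by
  choose N hN using fun i j => wl_lift (hM i j)
  exact ⟨of N, Matrix.ext hN⟩

omit [Pf p K] in
theorem wl_of {D : Type} [CommRing D] {ψ : D →+* K} (hψ : ∀ d, ψ d ∈ F.F 0) (x : WittVector p D) :
    wm p ψ x ∈ F.WL 0 := Fil.mem_WL.2 fun n => by
  rw [mul_zero]
  exact hψ _

omit [Pf p K] in
theorem mw_of {D I J : Type} [CommRing D] {ψ : D →+* K} (hψ : ∀ d, ψ d ∈ F.F 0)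
    (N : Matrix I J (WittVector p D)) : F.MW 0 (N.map (wm p ψ)) := fun _ _ => wl_of hψ _

omit [Pf p K] in
theorem wm_inj (C : Subring K) : Function.Injective (wm p C.subtype) :=
  WittVector.map_injective _ Subtype.val_injective

omit [Pf p K] in
theorem map_inj (C : Subring K) {I J : Type} {M N : Matrix I J (WittVector p C)}
    (e : M.map (wm p C.subtype) = N.map (wm p C.subtype)) : M = N :=
  Matrix.ext fun i j => wm_inj C (congrFun (congrFun e i) j)

theorem map_inv {A B I J : Type} [CommRing A] [CommRing B] [Fintype J] [DecidableEq I] (f : A →+* B)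
    {X : Matrix I J A} {Y : Matrix J I A} (e : X * Y = 1) : X.map f * Y.map f = 1 := by
  rw [← Matrix.map_mul, e, Matrix.map_one _ (map_zero _) (map_one _)]

theorem itw_map {S S' I I' : Type} [CommRing S] [Pf p S] [CommRing S'] [Pf p S'] [Fintype I]
    [Fintype I'] (f : S →+* S') {A : Matrix I I (WittVector p S)} {T : Matrix I I' (WittVector p S)}
    {A' : Matrix I' I' (WittVector p S)} (H : Itw A T A') :
    Itw (A.map (wm p f)) (T.map (wm p f)) (A'.map (wm p f)) := by
  have := congrArg (fun M => M.map (wm p f)) H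
  simp only [Matrix.map_mul] at this
  rw [Itw, ← this]
  exact congrArg (_ * ·) (Matrix.ext fun i j => (wm_si f _).symm)

/-! ### change of the basis -/

/-- the same lattice with another basis -/
def rb (v : LV p E h K) (Q Q' : Matrix (E ⊕ Fin h) (E ⊕ Fin h) (WittVector p K)) : LV p E h K where
  a := v.a
  lat := true
  μ := v.μ * Q
  ν := Q' * v.ν
  φ := 0
  ix := 0

variable {Q Q' : Matrix (E ⊕ Fin h) (E ⊕ Fin h) (WittVector p K)}

theorem rb_mA : (rb v Q Q').mA = Q' * v.mA * Q.map (si p K) := by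
  simp only [LV.mA, rb, Matrix.map_mul, Matrix.mul_assoc]

theorem rb_mB : (rb v Q Q').mB = Q'.map (si p K) * v.mB * Q := by
  simp only [LV.mB, rb, Matrix.map_mul, Matrix.mul_assoc]

theorem rb_isZ (hv : v.IsZ F) (hQ : F.MW 0 Q) (hQ' : F.MW 0 Q') (e : Q * Q' = 1) :
    (rb v Q Q').IsZ F where
  isA := hv.isA
  lat := rfl
  inv := by
    show v.μ * Q * (Q' * v.ν) = 1
    rw [Matrix.mul_assoc, ← Matrix.mul_assoc Q, e, Matrix.one_mul, hv.inv]
  hA := by
    rw [rb_mA]
    simpa using (hQ'.mul hv.hA).mul (mw_si hQ)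
  hB := by
    rw [rb_mB]
    simpa using ((mw_si hQ').mul hv.hB).mul hQ
  b1 := by
    have := hv.b1.mul hQ
    rwa [add_zero, Matrix.mul_assoc] at this
  b2 := by
    have := hQ'.mul hv.b2
    rwa [zero_add, ← Matrix.mul_assoc] at this

/-- a new basis in which `V` has the matrix `A'` -/
theorem rebase (hv : v.IsZ F) (e : E ⊕ Fin h ≃ Fin n)
    {P : Matrix (E ⊕ Fin h) (Fin n) (WittVector p K)} {P' : Matrix (Fin n) (E ⊕ Fin h) (WittVector p K)}
    {A' : Matrix (Fin n) (Fin n) (WittVector p K)} (hP : F.MW 0 P) (hP' : F.MW 0 P')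
    (h1 : P * P' = 1) (H : Itw v.mA P A') :
    ∃ s : LV p E h K, s.IsZ F ∧ s.a = v.a ∧ s.φ = 0 ∧ s.ix = 0 ∧ s.mA = A'.submatrix e e := by
  have h2 : P.submatrix id e * P'.submatrix e id = 1 := by
    rw [submatrix_mul_equiv, h1, submatrix_id_id]
  refine ⟨rb v (P.submatrix id e) (P'.submatrix e id), rb_isZ hv (fun _ _ => hP _ _)
    (fun _ _ => hP' _ _) h2, rfl, rfl, rfl, ?_⟩
  have h3 : v.mA * (P.submatrix id e).map (si p K) = P.submatrix id e * A'.submatrix e e := by
    rw [submatrix_mul_equiv, ← H]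
    rfl
  rw [rb_mA, Matrix.mul_assoc, h3, ← Matrix.mul_assoc, mul_eq_one_comm.1 h2, Matrix.one_mul]

/-! ### the data over the step zero -/

theorem mA_mB (hv : v.μ * v.ν = 1) : v.mA * v.mB = (p : WittVector p K) • 1 := by
  simp only [LV.mA, LV.mB, Matrix.mul_assoc]
  rw [← Matrix.mul_assoc (v.μ.map _), map_si_inv hv, Matrix.one_mul, ← Matrix.mul_assoc (V0 p E h _),
    V0_mul_B0, Matrix.smul_mul, Matrix.one_mul, Matrix.mul_smul, mul_eq_one_comm.1 hv]

theorem mB_mA (hv : v.μ * v.ν = 1) : v.mB * v.mA = (p : WittVector p K) • 1 := by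
  simp only [LV.mA, LV.mB, Matrix.mul_assoc]
  rw [← Matrix.mul_assoc v.μ, hv, Matrix.one_mul, ← Matrix.mul_assoc (B0 p E h _),
    B0_mul_V0, Matrix.smul_mul, Matrix.one_mul, Matrix.mul_smul, map_si_inv (mul_eq_one_comm.1 hv)]

omit hp in
theorem det_V0 {A : Type} [CommRing A] (m : ℕ) : (V0 p E (m + 1) A).det = p * (-1) ^ m := by
  rw [V0, det_fromBlocks_zero₂₁, det_one, one_mul, mul_comm]
  have := Cy.det_cm fun i : Fin (m + 1) => if (i : ℕ) = 0 then (p : A) else 0
  rw [if_pos (Fin.val_zero _)] at this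
  rw [← this]
  congr 1
  ext i j
  simp only [Cm, of_apply]
  split_ifs <;> simp_all

theorem wl_pow {x : WittVector p K} (N : ℕ) (hx : (p : WittVector p K) ^ N * x ∈ F.WL 0) :
    x ∈ F.WL 0 := by
  induction N with
  | zero => simpa using hx
  | succ N ih =>
    rw [pow_succ', mul_assoc] at hx
    exact ih (Fil.WL_p_mul.1 hx)

theorem data (hh : 1 ≤ h) (hv : v.IsZ F) :
    ∃ (A B : Matrix (E ⊕ Fin h) (E ⊕ Fin h) (WittVector p F.zero)) (r : (WittVector p F.zero)ˣ),
      A.map (wm p F.zero.subtype) = v.mA ∧ B.map (wm p F.zero.subtype) = v.mB ∧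
      A * B = (p : WittVector p F.zero) • 1 ∧ B * A = (p : WittVector p F.zero) • 1 ∧
      A.det = p * r := by
  obtain ⟨m, rfl⟩ : ∃ m, h = m + 1 := ⟨h - 1, by omega⟩
  obtain ⟨A, hA⟩ := mw_lift hv.hA
  obtain ⟨B, hB⟩ := mw_lift hv.hB
  have hp1 : ((p : WittVector p F.zero) • (1 : Matrix (E ⊕ Fin (m + 1)) (E ⊕ Fin (m + 1)) _)).map
      (wm p F.zero.subtype) = (p : WittVector p K) • 1 := by
    ext1 i j
    simp [Matrix.one_apply, apply_ite (wm p F.zero.subtype)]
  have d1 : v.μ.det * v.ν.det = 1 := by rw [← det_mul, hv.inv, det_one]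
  have d2 : si p K v.μ.det * si p K v.ν.det = 1 := by rw [← map_mul, d1, map_one]
  have d3 : ((-1 : WittVector p K) ^ m) * (-1) ^ m = 1 := by rw [← mul_pow]; simp
  let d : WittVector p K := (-1) ^ m * v.ν.det * si p K v.μ.det
  let d' : WittVector p K := (-1) ^ m * v.μ.det * si p K v.ν.det
  have d4 : d * d' = 1 := by
    calc _ = ((-1) ^ m * (-1) ^ m) * (v.μ.det * v.ν.det) * (si p K v.μ.det * si p K v.ν.det) := by ring
      _ = 1 := by rw [d1, d2, d3, one_mul, one_mul]
  have d5 : v.mA.det = p * d := by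
    rw [LV.mA, det_mul, det_mul, det_V0, ← RingHom.mapMatrix_apply, ← RingHom.map_det]
    ring
  obtain ⟨N, hN⟩ : ∃ N, Fintype.card (E ⊕ Fin (m + 1)) = N + 1 := ⟨Fintype.card E + m, by
    rw [Fintype.card_sum, Fintype.card_fin, add_assoc]⟩
  have d6 : v.mB.det = p ^ N * d' := by
    have := congrArg det (mA_mB hv.inv)
    rw [det_mul, d5, det_smul, det_one, mul_one, hN, pow_succ', mul_assoc] at this
    rw [← p_mul_inj this, mul_comm d, mul_assoc, d4, mul_one]
  have dA : wm p F.zero.subtype A.det = p * d := by rw [RingHom.map_det, ← d5, ← hA]; rfl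
  have dB : wm p F.zero.subtype B.det = p ^ N * d' := by rw [RingHom.map_det, ← d6, ← hB]; rfl
  obtain ⟨r, hr⟩ := wl_lift (F := F) (x := d) (Fil.WL_p_mul.1 (dA ▸ wl_of (fun c => c.2) _))
  obtain ⟨r', hr'⟩ := wl_lift (F := F) (x := d') (wl_pow N (dB ▸ wl_of (fun c => c.2) _))
  have hu : r * r' = 1 := wm_inj _ (by rw [map_mul, hr, hr', d4, map_one])
  refine ⟨A, B, ⟨r, r', hu, (mul_comm _ _).trans hu⟩, hA, hB, map_inj _ ?_, map_inj _ ?_,
    wm_inj _ ?_⟩
  · rw [Matrix.map_mul, hA, hB, hp1, mA_mB hv.inv]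
  · rw [Matrix.map_mul, hA, hB, hp1, mB_mA hv.inv]
  · rw [dA, map_mul, map_natCast, ← hr]

/-! ### twisted powers -/

theorem twPow_eq_tpw {I : Type} [Fintype I] [DecidableEq I] (A : Matrix I I (WittVector p K)) (N : ℕ) :
    twPow A N = tpw A N := by
  induction N with
  | zero => rfl
  | succ N ih => rw [twPow, tpw, ih]

theorem tpw_map {S I : Type} [CommRing S] [Pf p S] [Fintype I] [DecidableEq I] (f : S →+* K)
    (A : Matrix I I (WittVector p S)) (N : ℕ) :
    (tpw A N).map (wm p f) = tpw (A.map (wm p f)) N := by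
  rw [Cy.tpw_eq, Cy.tpw_eq]
  exact Cy.tp_map _ (wm_si f) A N

theorem tpw_sub {I J : Type} [Fintype I] [DecidableEq I] [Fintype J] [DecidableEq J] (e : I ≃ J)
    (A : Matrix J J (WittVector p K)) (N : ℕ) : tpw (A.submatrix e e) N = (tpw A N).submatrix e e := by
  induction N with
  | zero => exact (submatrix_one_equiv e).symm
  | succ N ih => rw [tpw, tpw, ih, ← submatrix_mul_equiv _ _ _ e]; rfl

variable (F v) in
/-- the ideal of the supersingular locus -/
def ss : Ideal F.zero := Ideal.span {y | ∃ l i, (y : K) = v.eb l i}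

theorem ui_of_top (hF : F.Closed) (hv : v.IsZ F) (H : ss F v = ⊤) : UI F v ⊤ := by
  let g : (E → ZMod p) × (E ⊕ Fin h) → F.zero := fun q =>
    ⟨v.eb q.1 q.2, (eps E h K F v hF hv).2 _ _⟩
  have h1 : (1 : F.zero) ∈ Ideal.span (Set.range g) := by
    refine Ideal.span_mono ?_ ((Ideal.eq_top_iff_one _).1 H)
    rintro y ⟨l, i, e⟩
    exact ⟨(l, i), Subtype.ext e.symm⟩
  obtain ⟨φ, hφ⟩ := Ideal.mem_span_range_iff_exists_fun.1 h1
  refine ⟨fun l i => φ (l, i), fun l i => (φ (l, i)).2, fun l i hl => (hl trivial).elim, ?_⟩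
  have := congrArg Subtype.val hφ
  rw [Fintype.sum_prod_type] at this
  simpa using this

/-- `V` is nilpotent along the supersingular locus -/
theorem nil (hh : 1 ≤ h) (hF : F.Closed) (hv : v.IsZ F) [Pf p F.zero]
    {A : Matrix (E ⊕ Fin h) (E ⊕ Fin h) (WittVector p F.zero)}
    (hA : A.map (wm p F.zero.subtype) = v.mA) :
    ∃ N, ∀ a b, (tpw A N a b).coeff 0 ∈ (ss F v).radical := by
  have he := (eps E h K F v hF hv).2
  obtain ⟨N, hN⟩ := (fv E h K F.zero v hh (fun x hx => F.root (by rwa [rt_pow, mul_zero])) hv.inv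
    (fun i j => hv.hA.coeff i j) he (ss F v).radical (Ideal.radical_isRadical _)).1
    fun l i => ⟨⟨_, he l i⟩, Ideal.le_radical (Ideal.subset_span ⟨l, i, rfl⟩), rfl⟩
  refine ⟨N, fun a b => ?_⟩
  obtain ⟨y, hy, e⟩ := hN a b
  rw [twPow_eq_tpw, ← hA, ← tpw_map] at e
  rwa [← Subtype.ext (a1 := y) (a2 := (tpw A N a b).coeff 0) e]

section cyc

variable {e : E ⊕ Fin h ≃ Fin n} {c : Fin n → WittVector p K}

theorem c_mem (hv : v.IsZ F) (hc : v.mA = (Cm c).submatrix e e) (l : Fin n) : c l ∈ F.WL 0 := by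
  obtain ⟨m, rfl⟩ : ∃ m, n = m + 1 := ⟨n - 1, by have := l.2; omega⟩
  have := hv.hA (e.symm l) (e.symm (Fin.last m))
  rw [hc] at this
  simpa [Cm, l.2.ne] using this

theorem c0_mem (hv : v.IsZ F) (hc : v.mA = (Cm c).submatrix e e) (l : Fin n) :
    (c l).coeff 0 ∈ F.F 0 := by simpa using Fil.mem_WL.1 (c_mem hv hc l) 0

theorem c_lift (hv : v.IsZ F) (hc : v.mA = (Cm c).submatrix e e) :
    ∃ c' : Fin n → WittVector p F.zero, ∀ l, wm p F.zero.subtype (c' l) = c l := by
  choose c' hc' using fun l => wl_lift (c_mem hv hc l)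
  exact ⟨c', hc'⟩

theorem cm_lift (hc : v.mA = (Cm c).submatrix e e) {c' : Fin n → WittVector p F.zero}
    (h' : ∀ l, wm p F.zero.subtype (c' l) = c l) :
    ((Cm c').submatrix e e).map (wm p F.zero.subtype) = v.mA := by
  rw [hc, ← submatrix_map, Cm_map, funext h']

/-- the coefficients vanish along the supersingular locus -/
theorem c_rad (hh : 1 ≤ h) (hF : F.Closed) (hv : v.IsZ F) (hc : v.mA = (Cm c).submatrix e e)
    (l : Fin n) (y : F.zero) (hy : (y : K) = (c l).coeff 0) : y ∈ (ss F v).radical := by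
  have := pf0 F
  obtain ⟨c', h'⟩ := c_lift hv hc
  obtain ⟨N, hN⟩ := nil hh hF hv (cm_lift hc h')
  have := ht p n N F.zero (ss F v) c' Empty 0 0 (fun i j => by
    have := hN (e.symm i) (e.symm j)
    rw [tpw_sub] at this
    simpa using this) l (by simp)
  rwa [← Subtype.ext (a1 := y) (a2 := (c' l).coeff 0) (by rw [hy, ← h']; rfl)] at this

theorem ui_of_unit (hh : 1 ≤ h) (hF : F.Closed) (hv : v.IsZ F) (hc : v.mA = (Cm c).submatrix e e)
    {l : Fin n} {t : K} (ht : t ∈ F.F 0) (h1 : (c l).coeff 0 * t = 1) : UI F v ⊤ := by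
  have h2 : (c l).coeff 0 ∈ F.zero := c0_mem hv hc l
  refine ui_of_top hF hv (Ideal.radical_eq_top.1 (Ideal.eq_top_of_isUnit_mem _
    (c_rad hh hF hv hc l ⟨_, h2⟩ rfl) (IsUnit.of_mul_eq_one ⟨t, ht⟩ (Subtype.ext h1))))

/-- the first coefficients vanish -/
theorem c_low (hv : v.μ * v.ν = 1) (hc : v.mA = (Cm c).submatrix e e) (l : Fin n)
    (hl : (l : ℕ) < h) : (c l).coeff 0 = 0 := by
  have hn : Fintype.card E + h = n := by simpa using Fintype.card_congr e
  have := ht p n h K ⊥ c E (of fun i x => (v.ν (e.symm i) (Sum.inl x)).coeff 0)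
    (of fun x j => (rt p K ^ h) ((v.μ (Sum.inl x) (e.symm j)).coeff 0)) (fun i j => by
      have h1 := Fv.coeff_twPow hv le_rfl (e.symm i) (e.symm j)
      rw [twPow_eq_tpw, hc, tpw_sub, submatrix_apply, e.apply_symm_apply, e.apply_symm_apply] at h1
      rw [h1, Matrix.mul_apply]
      exact Ideal.le_radical (sub_eq_zero.2 rfl)) l (by omega)
  obtain ⟨N, hN⟩ := this
  exact eq_zero_of_pow (p := p) hN

/-- the constant coefficient -/
theorem c_zero (hh : 1 ≤ h) (hv : v.IsZ F) (hc : v.mA = (Cm c).submatrix e e)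
    {c' : Fin n → WittVector p F.zero} (h' : ∀ l, wm p F.zero.subtype (c' l) = c l) (l : Fin n)
    (hl : (l : ℕ) = 0) : ∃ s : (WittVector p F.zero)ˣ, c' l = p * s := by
  obtain ⟨m, rfl⟩ : ∃ m, n = m + 1 := ⟨n - 1, by have := l.2; omega⟩
  obtain rfl : l = 0 := Fin.ext hl
  obtain ⟨A, -, r, hA, -, -, -, hd⟩ := data hh hv
  rw [map_inj _ (hA.trans (cm_lift hc h').symm), det_submatrix_equiv_self, Cy.det_cm] at hd
  refine ⟨(-1) ^ m * r, ?_⟩
  have d3 : ((-1 : WittVector p F.zero) ^ m) * (-1) ^ m = 1 := by rw [← mul_pow]; simp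
  rw [← one_mul (c' 0), ← d3, mul_assoc, hd]
  push_cast
  ring

theorem eb_fix (hv : v.μ * v.ν = 1) (l : E → ZMod p) (i : E ⊕ Fin h) :
    v.eb l i = ∑ j, (v.mA i j).coeff 0 * rt p K (v.eb l j) := by
  have h1 : ∀ x, (v.ν i (Sum.inl x)).coeff 0 =
      ∑ j, (v.mA i j).coeff 0 * rt p K ((v.ν j (Sum.inl x)).coeff 0) := fun x => by
    have h2 := Fv.fix hv 1 i x
    rw [twPow, twPow, Matrix.map_one _ (map_zero _) (map_one _), Matrix.mul_one, pow_one] at h2
    rw [h2]
    exact (map_sum (WittVector.constantCoeff : WittVector p K →+* K) _ _).trans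
      (Finset.sum_congr rfl fun j _ => WittVector.mul_coeff_zero _ _)
  simp only [eb_eq, h1, map_sum, map_mul, map_zc, Finset.mul_sum]
  rw [Finset.sum_comm]
  exact Finset.sum_congr rfl fun j _ => Finset.sum_congr rfl fun e _ => mul_left_comm _ _ _

/-- the fixed vectors vanish where the coefficients vanish -/
theorem ss_le (hF : F.Closed) (hv : v.IsZ F) (hc : v.mA = (Cm c).submatrix e e) {I : Ideal F.zero}
    (hI : I.IsRadical) (H : ∀ l, ∀ y : F.zero, (y : K) = (c l).coeff 0 → y ∈ I) : ss F v ≤ I := by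
  have := pf0 F
  refine Ideal.span_le.2 ?_
  rintro y ⟨l, i, hy⟩
  obtain ⟨m, rfl⟩ : ∃ m, n = m + 1 := ⟨n - 1, by have := (e i).2; omega⟩
  let z : Fin (m + 1) → F.zero := fun a => ⟨v.eb l (e.symm a), (eps E h K F v hF hv).2 _ _⟩
  let d : Fin (m + 1) → F.zero := fun a => ⟨(c a).coeff 0, c0_mem hv hc a⟩
  have h1 : z = Cm d *ᵥ fun a => rt p F.zero (z a) := funext fun a => Subtype.ext (by
    refine (eb_fix hv.inv l (e.symm a)).trans ?_
    rw [← e.symm.sum_comp, hc]
    refine Eq.trans ?_ (map_sum F.zero.subtype _ _).symm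
    refine Finset.sum_congr rfl fun b _ => ?_
    rw [map_mul, map_rt, submatrix_apply, e.apply_symm_apply, e.apply_symm_apply]
    congr 1
    exact (congrFun (congrFun (Cm_map WittVector.constantCoeff c) a) b).trans
      (congrFun (congrFun (Cm_map F.zero.subtype d) a) b).symm)
  have h2 : ∀ a, z a ∈ I := fun a => by
    induction a using Fin.induction with
    | zero =>
      rw [h1, Cy.cm_zero]
      exact I.mul_mem_right _ (H _ _ rfl)
    | succ a ih =>
      rw [h1, Cy.cm_succ]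
      exact I.add_mem (hI ⟨p, by rwa [rt_pow]⟩) (I.mul_mem_right _ (H _ _ rfl))
  have h3 : y = z (e i) := Subtype.ext (hy.trans (congrArg (v.eb l) (e.symm_apply_apply i).symm))
  exact h3 ▸ h2 _

theorem top_of_ui (hF : F.Closed) (hv : v.IsZ F) (H : UI F v ⊤) : ss F v = ⊤ := by
  obtain ⟨φ, h1, -, h2⟩ := H
  have he := (eps E h K F v hF hv).2
  have h3 : (1 : F.zero) = ∑ l, ∑ i, ⟨φ l i, h1 l i⟩ * ⟨v.eb l i, he l i⟩ := Subtype.ext (by
    simpa using h2.symm)
  rw [Ideal.eq_top_iff_one, h3]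
  exact sum_mem fun l _ => sum_mem fun i _ =>
    Ideal.mul_mem_left _ _ (Ideal.subset_span ⟨l, i, rfl⟩)

/-- outside of the supersingular locus the coefficients generate the unit ideal -/
theorem span_top (hF : F.Closed) (hv : v.IsZ F) (hc : v.mA = (Cm c).submatrix e e) (H : UI F v ⊤)
    {I : Ideal F.zero} (hI : ∀ l, ∀ y : F.zero, (y : K) = (c l).coeff 0 → y ∈ I.radical) : I = ⊤ :=
  Ideal.radical_eq_top.1 (top_le_iff.1 (top_of_ui hF hv H ▸
    ss_le hF hv hc (Ideal.radical_isRadical I) hI))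

end cyc

end P261.Sw
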